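import Vale.Agent.P095.H628.Main

/-! `𝒵`-stable algebras have central sequence algebras without characters. -/

open Filter Topology
open scoped CStarAlgebra ComplexOrder MultiplierAlgebra TensorProduct

namespace Vale.Agent.P095.H628

open Vale.Agent.P133 Vale.Agent.P095N Vale.Agent.P095 Vale.Agent.P095J Vale.Agent.P095R
  Vale.Agent.P095M Vale.Agent.P101 Vale.Agent.P095K

universe u v w

variable {A : Type u} [NonUnitalCStarAlgebra A]

theorem noCentral_of_locB [TopologicalSpace.SeparableSpace A] (h : NoCharLocB A) :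
    NoCentralHom A := by
  classical
  intro χ hχ y
  obtain ⟨m, R, h⟩ := h
  choose a b c d hn hc hs using fun n : ℕ => h
    ((Finset.range (n + 1)).image (TopologicalSpace.denseSeq A)) (1 / ((n : ℝ) + 1))
    (by positivity)
  have hmemF : ∀ n k : ℕ, k ≤ n → TopologicalSpace.denseSeq A k ∈
      (Finset.range (n + 1)).image (TopologicalSpace.denseSeq A) := fun n k hk =>
    Finset.mem_image.2 ⟨k, Finset.mem_range.2 (by omega), rfl⟩
  let A' : Fin m → CentralSeq A := fun i => ⟨fun n => a n i,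
    mem_centralSeq_of_dense (fun n => (hn n i).1) fun n k hk => (hc n i _ (hmemF n k hk)).1⟩
  let B' : Fin m → CentralSeq A := fun i => ⟨fun n => b n i,
    mem_centralSeq_of_dense (fun n => (hn n i).2.1) fun n k hk => (hc n i _ (hmemF n k hk)).2.1⟩
  let C' : Fin m → CentralSeq A := fun i => ⟨fun n => c n i,
    mem_centralSeq_of_dense (fun n => (hn n i).2.2.1) fun n k hk =>
      (hc n i _ (hmemF n k hk)).2.2.1⟩
  let D' : Fin m → CentralSeq A := fun i => ⟨fun n => d n i,
    mem_centralSeq_of_dense (fun n => (hn n i).2.2.2) fun n k hk =>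
      (hc n i _ (hmemF n k hk)).2.2.2⟩
  set S : CentralSeq A := ∑ i, C' i * (A' i * B' i - B' i * A' i) * D' i with hS
  have hχS : χ S = 0 := by
    rw [hS, map_sum]
    refine Finset.sum_eq_zero fun i _ => ?_
    simp only [map_mul, map_sub]
    rw [mul_comm (χ (B' i)), sub_self, mul_zero, zero_mul]
  have hSn : ∀ n, (S : ℕ → A) n = ∑ i, c n i * (a n i * b n i - b n i * a n i) * d n i := by
    intro n
    have e2 : (S : ℕ → A) = ∑ i, (C' i : ℕ → A) * ((A' i : ℕ → A) * (B' i : ℕ → A) -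
        (B' i : ℕ → A) * (A' i : ℕ → A)) * (D' i : ℕ → A) := by
      rw [hS]
      simp only [AddSubmonoidClass.coe_finsetSum, MulMemClass.coe_mul, AddSubgroupClass.coe_sub]
    rw [e2, Finset.sum_apply]
    rfl
  obtain ⟨CS, hCS⟩ := centralSeq_bdd S
  obtain ⟨Cy, hCy⟩ := centralSeq_bdd y
  have hunit : ∀ x : A, Tendsto (fun n => ‖(S : ℕ → A) n * x - x‖) atTop (𝓝 0) := by
    intro x
    have h1 : Tendsto (fun n => ‖((((S : ℕ → A) n : A) : Unitization ℂ A) - 1) *
        (x : Unitization ℂ A)‖) atTop (𝓝 0) := by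
      refine tendsto_null_of_sep (C := CS + 1) (fun n => ?_) (dense_inr (inr_mem x)) fun k => ?_
      · refine (norm_sub_le _ _).trans ?_
        rw [Unitization.norm_inr]
        have h5 : ‖(1 : Unitization ℂ A)‖ ≤ 1 := (CStarRing.norm_one (E := Unitization ℂ A)).le
        linarith [hCS n]
      · refine tendsto_of_le_div _ (fun n => norm_nonneg _) k fun n hkn => ?_
        rw [sub_mul, one_mul, ← Unitization.inr_mul, ← Unitization.inr_sub, Unitization.norm_inr,
          hSn]
        exact hs n _ (hmemF n k hkn)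
    refine h1.congr fun n => ?_
    rw [sub_mul, one_mul, ← Unitization.inr_mul, ← Unitization.inr_sub, Unitization.norm_inr]
  have h2 : χ (S * y - y) = 0 := by
    refine hχ _ fun x => ?_
    have h3 := ((centralSeq_comm y x).const_mul (CS + 1)).add ((hunit x).mul_const Cy)
    rw [mul_zero, zero_mul, add_zero] at h3
    refine squeeze_zero (fun n => norm_nonneg _) (fun n => ?_) h3
    have e : ((S * y - y : CentralSeq A) : ℕ → A) n * x =
        ((S : ℕ → A) n * ((y : ℕ → A) n * x - x * (y : ℕ → A) n) -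
          ((y : ℕ → A) n * x - x * (y : ℕ → A) n)) +
        ((S : ℕ → A) n * x - x) * (y : ℕ → A) n := by
      change ((S : ℕ → A) n * (y : ℕ → A) n - (y : ℕ → A) n) * x = _
      noncomm_ring
    rw [e]
    have hCS0 : 0 ≤ CS := (norm_nonneg _).trans (hCS 0)
    refine (norm_add_le _ _).trans (add_le_add ?_ ?_)
    · refine (norm_sub_le _ _).trans ?_
      rw [add_mul, one_mul]
      exact add_le_add_left ((norm_mul_le _ _).trans
        (mul_le_mul_of_nonneg_right (hCS n) (norm_nonneg _))) _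
    · exact (norm_mul_le _ _).trans (mul_le_mul_of_nonneg_left (hCy n) (norm_nonneg _))
  rw [map_sub, map_mul, hχS, zero_mul, zero_sub, neg_eq_zero] at h2
  exact h2

theorem locB_of_equiv {B : Type u} [NonUnitalCStarAlgebra B] (Φ : A ≃⋆ₐ[ℂ] B)
    (h : NoCharLocB B) : NoCharLocB A := by
  classical
  obtain ⟨m, R, h⟩ := h
  refine ⟨m, R, fun F ε hε => ?_⟩
  obtain ⟨a, b, c, d, hn, hc, hs⟩ := h (F.image Φ) ε hε
  have hnorm : ∀ x : B, ‖Φ.symm x‖ = ‖x‖ := fun x => StarAlgEquiv.norm_map Φ.symm x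
  have hsub : ∀ (p : B) (x : A), Φ.symm p * x - x * Φ.symm p = Φ.symm (p * Φ x - Φ x * p) := by
    intro p x
    simp
  refine ⟨fun i => Φ.symm (a i), fun i => Φ.symm (b i), fun i => Φ.symm (c i),
    fun i => Φ.symm (d i), fun i => ?_, fun i x hx => ?_, fun x hx => ?_⟩
  · simp only [hnorm]
    exact hn i
  · simp only [hsub, hnorm]
    exact hc i _ (Finset.mem_image_of_mem _ hx)
  · have e : (∑ i, Φ.symm (c i) * (Φ.symm (a i) * Φ.symm (b i) - Φ.symm (b i) * Φ.symm (a i)) *
        Φ.symm (d i)) * x - x =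
        Φ.symm ((∑ i, c i * (a i * b i - b i * a i) * d i) * Φ x - Φ x) := by
      simp [map_sum]
    rw [e, hnorm]
    exact hs _ (Finset.mem_image_of_mem _ hx)

open Classical in
theorem isAmenable_of_eq {G : Type w} [Group G] (h : ∀ a b : G, a = b) : IsAmenable G := by
  intro S ε hε
  refine ⟨{1}, Finset.singleton_nonempty _, fun s _ => ?_⟩
  refine (le_of_eq ?_).trans (mul_nonneg hε.le (Nat.cast_nonneg _))
  rw [Nat.cast_eq_zero, Finset.card_eq_zero]
  refine Finset.eq_empty_of_forall_notMem fun g hg => ?_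
  rw [Finset.mem_filter] at hg
  exact hg.2 (Finset.mem_singleton.2 (h _ _))

/-- The central sequence algebra of a separable simple nuclear C*-algebra has no characters if and
only if the algebra is `𝒵`-stable. -/
theorem zstable_iff [TopologicalSpace.SeparableSpace A] {Z B : Type u} [CStarAlgebra Z]
    [NonUnitalCStarAlgebra B] (hS : IsSimpleAlg A) (hA : IsNuclearAlg A)
    (hZ : IsJiangSuAlgebra Z) (hZ' : IsStronglySelfAbsorbing Z)
    (T : A →ₗ[ℂ] Z →ₗ[ℂ] B) (hB : IsTensorProd T) :
    Nonempty (A ≃⋆ₐ[ℂ] B) ↔ NoCentralCharacters A := by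
  constructor
  · rintro ⟨Φ⟩
    exact noCentralCharacters_of (noCentral_of_locB
      (locB_of_equiv Φ (noCharLocB_of_tensor hB.isTensorCompletionN hZ hZ')))
  · intro h
    obtain ⟨Φ, -⟩ := ((zstableN_of_noCentral hS hA h (G := Unit) (isAmenable_of_eq fun _ _ => rfl) 1).conj Z B T 1
      hZ hB.isTensorCompletionN (fun _ _ _ => rfl)).conj
    exact ⟨Φ⟩

theorem conj_of_noCentral [TopologicalSpace.SeparableSpace A] {Z B : Type u} [CStarAlgebra Z]
    [NonUnitalCStarAlgebra B] (hS : IsSimpleAlg A) (hA : IsNuclearAlg A)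
    (hZ : IsJiangSuAlgebra Z) (T : A →ₗ[ℂ] Z →ₗ[ℂ] B) (hB : IsTensorProd T)
    (h : NoCentralCharacters A) {G : Type w} [Group G] [Countable G] (hG : IsAmenable G)
    (α : G →* (A ≃⋆ₐ[ℂ] A)) (β : G →* (B ≃⋆ₐ[ℂ] B)) (hβ : ∀ g a z, β g (T a z) = T (α g a) z) :
    IsCocycleConj α β :=
  isCocycleConj_of ((zstableN_of_noCentral hS hA h hG α).conj Z B T β hZ
    hB.isTensorCompletionN hβ)

end Vale.Agent.P095.H628
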