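import Mathlib

/-! The central sequence algebra of a C*-algebra and its characters. -/

open Filter Topology

namespace Vale.Agent.P095.H628

/-- Bounded central sequences of `A`: bounded sequences `x` in `A` with `‖x n * a - a * x n‖ → 0`
for every `a` in `A`. -/
def IsCentralSeq {A : Type*} [NonUnitalCStarAlgebra A] (x : ℕ → A) : Prop :=
  (∃ C : ℝ, ∀ n, ‖x n‖ ≤ C) ∧ ∀ a : A, Tendsto (fun n => ‖x n * a - a * x n‖) atTop (𝓝 0)

section

variable {A : Type*} [NonUnitalCStarAlgebra A]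

theorem IsCentralSeq.mul {x y : ℕ → A} (h : IsCentralSeq x) (h' : IsCentralSeq y) :
    IsCentralSeq (x * y) := by
  obtain ⟨⟨C, hC⟩, hx⟩ := h
  obtain ⟨⟨D, hD⟩, hy⟩ := h'
  refine ⟨⟨C * D, fun i => (norm_mul_le _ _).trans
    (mul_le_mul (hC i) (hD i) (norm_nonneg _) ((norm_nonneg _).trans (hC i)))⟩, fun b => ?_⟩
  have h1 := ((hy b).const_mul C).add ((hx b).mul_const D)
  rw [mul_zero, zero_mul, add_zero] at h1
  refine squeeze_zero (fun i => norm_nonneg _) (fun i => ?_) h1
  have e : (x * y) i * b - b * (x * y) i = x i * (y i * b - b * y i) +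
      (x i * b - b * x i) * y i := by
    simp only [Pi.mul_apply]
    noncomm_ring
  rw [e]
  refine (norm_add_le _ _).trans (add_le_add ((norm_mul_le _ _).trans ?_)
    ((norm_mul_le _ _).trans ?_))
  · exact mul_le_mul_of_nonneg_right (hC i) (norm_nonneg _)
  · exact mul_le_mul_of_nonneg_left (hD i) (norm_nonneg _)

theorem IsCentralSeq.add {x y : ℕ → A} (h : IsCentralSeq x) (h' : IsCentralSeq y) :
    IsCentralSeq (x + y) := by
  obtain ⟨⟨C, hC⟩, hx⟩ := h
  obtain ⟨⟨D, hD⟩, hy⟩ := h'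
  refine ⟨⟨C + D, fun i => (norm_add_le _ _).trans (add_le_add (hC i) (hD i))⟩, fun b => ?_⟩
  have h1 := (hx b).add (hy b)
  rw [add_zero] at h1
  refine squeeze_zero (fun i => norm_nonneg _) (fun i => ?_) h1
  have e : (x + y) i * b - b * (x + y) i = (x i * b - b * x i) + (y i * b - b * y i) := by
    simp only [Pi.add_apply]
    noncomm_ring
  rw [e]
  exact norm_add_le _ _

theorem IsCentralSeq.zero : IsCentralSeq (0 : ℕ → A) :=
  ⟨⟨0, fun n => by simp⟩, fun a => by simp⟩

theorem IsCentralSeq.smul (c : ℂ) {x : ℕ → A} (h : IsCentralSeq x) : IsCentralSeq (c • x) := by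
  obtain ⟨⟨C, hC⟩, hx⟩ := h
  refine ⟨⟨‖c‖ * C, fun n => ?_⟩, fun a => ?_⟩
  · rw [Pi.smul_apply, norm_smul]
    exact mul_le_mul_of_nonneg_left (hC n) (norm_nonneg _)
  · have h1 := (hx a).const_mul ‖c‖
    rw [mul_zero] at h1
    refine h1.congr fun n => ?_
    rw [Pi.smul_apply, smul_mul_assoc, mul_smul_comm, ← smul_sub, norm_smul]

theorem IsCentralSeq.star {x : ℕ → A} (h : IsCentralSeq x) : IsCentralSeq (star x) := by
  obtain ⟨⟨C, hC⟩, hx⟩ := h
  refine ⟨⟨C, fun i => by simpa using hC i⟩, fun b => ?_⟩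
  refine (hx (Star.star b)).congr fun i => ?_
  rw [← norm_star]
  simp only [star_sub, star_mul, star_star, Pi.star_apply]
  exact norm_sub_rev _ _

end

/-- `χ` is a character of the central sequence algebra `F(A)` of `A`, that is, of the algebra of
bounded central sequences modulo the sequences `x` with `‖x n * a‖ → 0` for every `a` in `A`: a
nonzero *-homomorphism to `ℂ` (the values of `χ` at other sequences play no role). -/
structure IsCentralCharacter {A : Type*} [NonUnitalCStarAlgebra A] (χ : (ℕ → A) → ℂ) : Prop where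
  add : ∀ x y, IsCentralSeq x → IsCentralSeq y → χ (fun n => x n + y n) = χ x + χ y
  smul : ∀ (c : ℂ) (x : ℕ → A), IsCentralSeq x → χ (fun n => c • x n) = c * χ x
  mul : ∀ x y, IsCentralSeq x → IsCentralSeq y → χ (fun n => x n * y n) = χ x * χ y
  star : ∀ x, IsCentralSeq x → χ (fun n => star (x n)) = star (χ x)
  ann : ∀ x, IsCentralSeq x → (∀ a : A, Tendsto (fun n => ‖x n * a‖) atTop (𝓝 0)) → χ x = 0
  ne : ∃ x, IsCentralSeq x ∧ χ x ≠ 0

/-- The central sequence algebra `F(A)` of `A` has no characters. -/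
def NoCentralCharacters (A : Type*) [NonUnitalCStarAlgebra A] : Prop :=
  ∀ χ : (ℕ → A) → ℂ, ¬ IsCentralCharacter χ

/-- The *-algebra of bounded central sequences of `A`. -/
def CentralSeq (A : Type*) [NonUnitalCStarAlgebra A] : NonUnitalStarSubalgebra ℂ (ℕ → A) where
  carrier := {x | IsCentralSeq x}
  mul_mem' := IsCentralSeq.mul
  add_mem' := IsCentralSeq.add
  zero_mem' := IsCentralSeq.zero
  smul_mem' c _ := IsCentralSeq.smul c
  star_mem' := IsCentralSeq.star

/-- Every *-homomorphism from the bounded central sequences to `ℂ` which vanishes on the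
annihilating sequences is zero. -/
def NoCentralHom (A : Type*) [NonUnitalCStarAlgebra A] : Prop :=
  ∀ χ : CentralSeq A →⋆ₙₐ[ℂ] ℂ,
    (∀ x : CentralSeq A, (∀ a : A, Tendsto (fun n => ‖(x : ℕ → A) n * a‖) atTop (𝓝 0)) →
      χ x = 0) → ∀ x, χ x = 0

theorem noCentralHom_of {A : Type*} [NonUnitalCStarAlgebra A] (h : NoCentralCharacters A) :
    NoCentralHom A := by
  classical
  intro χ hχ x₀
  by_contra hne
  refine h (fun x => if hx : IsCentralSeq x then χ ⟨x, hx⟩ else 0) ⟨fun x y hx hy => ?_,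
    fun c x hx => ?_, fun x y hx hy => ?_, fun x hx => ?_, fun x hx h0 => ?_, x₀, x₀.2, ?_⟩
  · have h1 : IsCentralSeq (fun n => x n + y n) := hx.add hy
    simp only [h1, hx, hy, dif_pos]
    exact map_add χ (⟨x, hx⟩ : CentralSeq A) ⟨y, hy⟩
  · have h1 : IsCentralSeq (fun n => c • x n) := hx.smul c
    simp only [h1, hx, dif_pos]
    exact map_smul χ c (⟨x, hx⟩ : CentralSeq A)
  · have h1 : IsCentralSeq (fun n => x n * y n) := hx.mul hy
    simp only [h1, hx, hy, dif_pos]
    exact map_mul χ (⟨x, hx⟩ : CentralSeq A) ⟨y, hy⟩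
  · have h1 : IsCentralSeq (fun n => star (x n)) := hx.star
    simp only [h1, hx, dif_pos]
    exact map_star χ (⟨x, hx⟩ : CentralSeq A)
  · simp only [hx, dif_pos]
    exact hχ ⟨x, hx⟩ h0
  · have h1 : IsCentralSeq (x₀ : ℕ → A) := x₀.2
    simp only [h1, dif_pos]
    exact hne

theorem noCentralCharacters_of {A : Type*} [NonUnitalCStarAlgebra A] (h : NoCentralHom A) :
    NoCentralCharacters A := by
  intro χ hχ
  obtain ⟨x₀, hx₀, hne⟩ := hχ.ne
  let ψ : CentralSeq A →⋆ₙₐ[ℂ] ℂ :=
    { toFun := fun x => χ x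
      map_smul' := fun c x => hχ.smul c _ x.2
      map_zero' := hχ.ann _ IsCentralSeq.zero fun a => by simp
      map_add' := fun x y => hχ.add _ _ x.2 y.2
      map_mul' := fun x y => hχ.mul _ _ x.2 y.2
      map_star' := fun x => hχ.star _ x.2 }
  exact hne (h ψ (fun x hx => hχ.ann _ x.2 hx) ⟨x₀, hx₀⟩)

end Vale.Agent.P095.H628
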