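import Vale.Agent.P095.Bdl.B19
import Vale.Agent.P095.H628.Defs

/-! Absence of characters of the central sequence algebra gives equivariant `𝒵`-stability. -/

open Filter Topology
open scoped CStarAlgebra ComplexOrder MultiplierAlgebra TensorProduct

namespace Vale.Agent.P095.H628

open Vale.Agent.P133 Vale.Agent.P095N

universe u v w

section rel

variable {M : Type u} [CStarAlgebra M] [PartialOrder M] [StarOrderedRing M] {I : CIdeal M}

/-- The local output of the relative theory, from the absence of characters. -/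
theorem localNoCharR_of_isEmpty (hS : SimpleI I) (hne : ∃ b ∈ I, b ≠ 0) (hsep : SepI I)
    (hN : P083.IsNuclear M) (hF : IsEmpty (FR I (atTop : Filter ℕ) →⋆ₐ[ℂ] ℂ)) {G : Type w}
    [Group G] (β : G →* (M ≃⋆ₐ[ℂ] M)) (hβ : InvI I β) (hG : P095.IsAmenable G) :
    LocalNoCharR I β := by
  obtain ⟨b, hb, hb0, hb1⟩ := exists_b0 hne
  have : Nontrivial M := ⟨⟨b, 0, fun h => by rw [h, norm_zero] at hb1; exact zero_ne_one hb1⟩⟩
  have h2 := twoOrthR_of hS hsep b hb hb0 hb1 hF
  have hSI : SIR I b := P095M.sir_of_cpap hS b hb hb1.le (cpapR_of_isNuclear hN)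
    (P095M.centOrthR_of_two hS hb hb0 hb1 h2) (P095C.cmpI hN I hS (upLocal_of_isEmpty I hF))
  exact P095K.localNoCharR_of_eqSIR I β hβ (P095K.eq_siR hS ⟨hsep⟩ hβ hb hb1 h2 hSI hG)
    (liftR hsep hF β hβ hG)

end rel

open Vale.Agent.P095 Vale.Agent.P095J Vale.Agent.P095R Vale.Agent.P095M Vale.Agent.P101
  Vale.Agent.P095K

section

variable {A : Type u} [NonUnitalCStarAlgebra A]

theorem centralSeq_bdd (x : CentralSeq A) : ∃ C : ℝ, ∀ n, ‖(x : ℕ → A) n‖ ≤ C := x.2.1

theorem centralSeq_comm (x : CentralSeq A) (a : A) :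
    Tendsto (fun n => ‖(x : ℕ → A) n * a - a * (x : ℕ → A) n‖) atTop (𝓝 0) := x.2.2 a

/-- Bounded central sequences of `A` as elements of the relative commutant. -/
theorem inr_mem_relSeq (x : CentralSeq A) :
    (fun n => (((x : ℕ → A) n : A) : Unitization ℂ A)) ∈ relSeq (inrIdeal A) (atTop : Filter ℕ) := by
  obtain ⟨C, hC⟩ := centralSeq_bdd x
  refine ⟨⟨C, fun n => by rw [Unitization.norm_inr]; exact hC n⟩, fun b hb => ?_⟩
  obtain ⟨a, rfl⟩ := mem_inrIdeal_iff.1 hb
  refine (centralSeq_comm x a).congr fun n => ?_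
  rw [← Unitization.inr_mul, ← Unitization.inr_mul, ← Unitization.inr_sub, Unitization.norm_inr]

/-- The embedding of bounded central sequences of `A` into the relative commutant. -/
noncomputable def toRel : CentralSeq A →⋆ₙₐ[ℂ] relSeq (inrIdeal A) (atTop : Filter ℕ) where
  toFun x := ⟨fun n => (((x : ℕ → A) n : A) : Unitization ℂ A), inr_mem_relSeq x⟩
  map_smul' c x := Subtype.ext (funext fun n => by
    change ((c • (x : ℕ → A) n : A) : Unitization ℂ A) = c • (((x : ℕ → A) n : A) : Unitization ℂ A)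
    rw [Unitization.inr_smul])
  map_zero' := Subtype.ext (funext fun n => Unitization.inr_zero ℂ)
  map_add' x y := Subtype.ext (funext fun n => Unitization.inr_add ℂ _ _)
  map_mul' x y := Subtype.ext (funext fun n => Unitization.inr_mul ℂ _ _)
  map_star' x := Subtype.ext (funext fun n => Unitization.inr_star _)

theorem toRel_apply (x : CentralSeq A) (n : ℕ) :
    (toRel x : ℕ → Unitization ℂ A) n = (((x : ℕ → A) n : A) : Unitization ℂ A) := rfl

theorem dense_inr [TopologicalSpace.SeparableSpace A] {b : Unitization ℂ A} (hb : b ∈ inrIdeal A)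
    (ε : ℝ) (hε : 0 < ε) :
    ∃ n, ‖b - ((TopologicalSpace.denseSeq A n : A) : Unitization ℂ A)‖ < ε := by
  obtain ⟨a, rfl⟩ := mem_inrIdeal_iff.1 hb
  obtain ⟨n, hn⟩ := (TopologicalSpace.denseRange_denseSeq A).exists_dist_lt a hε
  refine ⟨n, ?_⟩
  rw [← Unitization.inr_sub, Unitization.norm_inr, ← dist_eq_norm]
  exact hn

/-- A sequence which asymptotically commutes with a dense sequence is central. -/
theorem mem_centralSeq_of_dense [TopologicalSpace.SeparableSpace A] {x : ℕ → A} {C : ℝ}
    (hC : ∀ n, ‖x n‖ ≤ C)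
    (h : ∀ n : ℕ, ∀ m ≤ n, ‖x n * TopologicalSpace.denseSeq A m -
      TopologicalSpace.denseSeq A m * x n‖ ≤ 1 / ((n : ℝ) + 1)) : x ∈ CentralSeq A := by
  refine ⟨⟨C, hC⟩, fun a => ?_⟩
  have h1 : Tendsto (fun n => ‖(x n : Unitization ℂ A) * (a : Unitization ℂ A) -
      (a : Unitization ℂ A) * (x n : Unitization ℂ A)‖) atTop (𝓝 0) := by
    refine tendsto_comm_of_sep (C := C) (fun n => by rw [Unitization.norm_inr]; exact hC n)
      (dense_inr (inr_mem a)) fun m => ?_
    refine tendsto_of_le_div _ (fun n => norm_nonneg _) m fun n hn => ?_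
    rw [← Unitization.inr_mul, ← Unitization.inr_mul, ← Unitization.inr_sub, Unitization.norm_inr]
    exact h n m hn
  refine h1.congr fun n => ?_
  rw [← Unitization.inr_mul, ← Unitization.inr_mul, ← Unitization.inr_sub, Unitization.norm_inr]

/-- A sequential approximate unit. -/
theorem exists_unitSeq [TopologicalSpace.SeparableSpace A] :
    ∃ e : CentralSeq A, FR.mk (inrIdeal A) (atTop : Filter ℕ) (toRel e) = 1 := by
  classical
  let _ : PartialOrder A := CStarAlgebra.spectralOrder A
  have _ : StarOrderedRing A := CStarAlgebra.spectralOrderedRing A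
  have hU := CStarAlgebra.increasingApproximateUnit A
  have _ : NeBot (CStarAlgebra.approximateUnit A) := hU.neBot
  have key : ∀ n : ℕ, ∃ e : A, ‖e‖ ≤ 1 ∧ ∀ k ≤ n,
      ‖e * TopologicalSpace.denseSeq A k - TopologicalSpace.denseSeq A k‖ ≤
        1 / (2 * ((n : ℝ) + 1)) ∧
      ‖TopologicalSpace.denseSeq A k * e - TopologicalSpace.denseSeq A k‖ ≤
        1 / (2 * ((n : ℝ) + 1)) := by
    intro n
    have hpos : (0 : ℝ) < 1 / (2 * ((n : ℝ) + 1)) := by positivity
    have h1 : ∀ k ∈ Finset.range (n + 1), ∀ᶠ e in CStarAlgebra.approximateUnit A,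
        ‖e * TopologicalSpace.denseSeq A k - TopologicalSpace.denseSeq A k‖ ≤
        1 / (2 * ((n : ℝ) + 1)) ∧
      ‖TopologicalSpace.denseSeq A k * e - TopologicalSpace.denseSeq A k‖ ≤
        1 / (2 * ((n : ℝ) + 1)) := by
      intro k _
      have h2 := (Metric.tendsto_nhds.1 (hU.tendsto_mul_right (TopologicalSpace.denseSeq A k)))
        _ hpos
      have h3 := (Metric.tendsto_nhds.1 (hU.tendsto_mul_left (TopologicalSpace.denseSeq A k)))
        _ hpos
      filter_upwards [h2, h3] with e he1 he2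
      rw [dist_eq_norm] at he1 he2
      exact ⟨he1.le, he2.le⟩
    have h4 := (Finset.eventually_all _).2 h1
    obtain ⟨e, he, hn⟩ := (h4.and hU.eventually_norm).exists
    exact ⟨e, hn, fun k hk => he k (Finset.mem_range.2 (by omega))⟩
  choose e he1 he2 using key
  have hle : ∀ n : ℕ, 1 / (2 * ((n : ℝ) + 1)) ≤ 1 / ((n : ℝ) + 1) := fun n =>
    one_div_le_one_div_of_le (by positivity) (by nlinarith [(Nat.cast_nonneg n : (0 : ℝ) ≤ n)])
  have hmem : e ∈ CentralSeq A := by
    refine mem_centralSeq_of_dense he1 fun n m hm => ?_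
    obtain ⟨h1, h2⟩ := he2 n m hm
    have h3 : e n * TopologicalSpace.denseSeq A m - TopologicalSpace.denseSeq A m * e n =
        (e n * TopologicalSpace.denseSeq A m - TopologicalSpace.denseSeq A m) -
          (TopologicalSpace.denseSeq A m * e n - TopologicalSpace.denseSeq A m) := by abel
    rw [h3]
    refine (norm_sub_le _ _).trans ?_
    have h4 : (1 : ℝ) / ((n : ℝ) + 1) = 1 / (2 * ((n : ℝ) + 1)) + 1 / (2 * ((n : ℝ) + 1)) := by
      field_simp
      ring
    rw [h4]
    exact add_le_add h1 h2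
  refine ⟨⟨e, hmem⟩, ?_⟩
  rw [← map_one (FR.mk (inrIdeal A) (atTop : Filter ℕ)), FR.mk_eq_iff]
  intro b hb
  refine tendsto_null_of_sep (C := 2) (fun n => ?_) (dense_inr hb) fun k => ?_
  · change ‖((e n : A) : Unitization ℂ A) - 1‖ ≤ 2
    refine (norm_sub_le _ _).trans ?_
    rw [Unitization.norm_inr]
    have h5 : ‖(1 : Unitization ℂ A)‖ ≤ 1 := by
      have := CStarRing.norm_one (E := Unitization ℂ A)
      exact this.le
    linarith [he1 n]
  · refine tendsto_of_le_div _ (fun n => norm_nonneg _) k fun n hkn => ?_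
    change ‖(((e n : A) : Unitization ℂ A) - 1) *
      ((TopologicalSpace.denseSeq A k : A) : Unitization ℂ A)‖ ≤ _
    rw [sub_mul, one_mul, ← Unitization.inr_mul, ← Unitization.inr_sub, Unitization.norm_inr]
    exact ((he2 n k hkn).1).trans (hle n)

/-- If the central sequence algebra of `A` has no characters, then neither has the relative
central sequence algebra of `A` in its unitization. -/
theorem isEmpty_of_noCentral [TopologicalSpace.SeparableSpace A] (h : NoCentralHom A) :
    IsEmpty (FR (inrIdeal A) (atTop : Filter ℕ) →⋆ₐ[ℂ] ℂ) := by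
  refine ⟨fun χ => ?_⟩
  obtain ⟨e, he⟩ := exists_unitSeq (A := A)
  have h1 := h (((χ : FR (inrIdeal A) (atTop : Filter ℕ) →⋆ₙₐ[ℂ] ℂ).comp
    (FR.mk (inrIdeal A) (atTop : Filter ℕ) :
      relSeq (inrIdeal A) (atTop : Filter ℕ) →⋆ₙₐ[ℂ] FR (inrIdeal A) (atTop : Filter ℕ))).comp
      toRel) (fun x hx => ?_) e
  · change χ (FR.mk (inrIdeal A) (atTop : Filter ℕ) (toRel e)) = 0 at h1
    rw [he, map_one] at h1
    exact one_ne_zero h1
  · change χ (FR.mk (inrIdeal A) (atTop : Filter ℕ) (toRel x)) = 0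
    have h2 : FR.mk (inrIdeal A) (atTop : Filter ℕ) (toRel x) = 0 := by
      rw [FR.mk_eq_zero_iff]
      intro b hb
      obtain ⟨a, rfl⟩ := mem_inrIdeal_iff.1 hb
      refine (hx a).congr fun n => ?_
      rw [toRel_apply, ← Unitization.inr_mul, Unitization.norm_inr]
    rw [h2, map_zero]

/-- Equivariant `𝒵`-stability from the absence of characters of the central sequence algebra. -/
theorem zstableN_of_noCentral [TopologicalSpace.SeparableSpace A] (hS : IsSimpleAlg A)
    (hA : IsNuclearAlg A) (h : NoCentralCharacters A) {G : Type w} [Group G] [Countable G]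
    (hG : IsAmenable G) (α : G →* (A ≃⋆ₐ[ℂ] A)) : EquivariantlyZStableN α := by
  let _ : PartialOrder (Unitization ℂ A) := CStarAlgebra.spectralOrder _
  have _ : StarOrderedRing (Unitization ℂ A) := CStarAlgebra.spectralOrderedRing _
  obtain ⟨a, ha⟩ := hS.nonzero
  refine zstableN_of_localNoCharR α (localNoCharR_of_isEmpty
    (simpleI_inr (isSimpleN_of_alg hS)) ⟨a, inr_mem a, fun h => ha ?_⟩
    sepI_inrIdeal (isNuclear_unitization hA) (isEmpty_of_noCentral (noCentralHom_of h)) _
    (invI_unitAct α) hG)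
  exact Unitization.inr_injective (R := ℂ) h

end

end Vale.Agent.P095.H628
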