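import Vale.Agent.P095.H628.Conv

/-! The property of the final statement. -/

namespace Vale.Agent.P095.H628

open Vale.Agent.P095 Vale.Agent.P095K Vale.Agent.P095R Vale.Agent.P101

universe u w

/-- Every action `α` of every countable amenable group on `A` is cocycle conjugate to `α ⊗ id`.
Here `T a z` stands for `a ⊗ z`, and `B` is the tensor product `A ⊗ Z`. -/
def AllActionsStable {A Z B : Type u} [NonUnitalCStarAlgebra A] [CStarAlgebra Z]
    [NonUnitalCStarAlgebra B] (T : A →ₗ[ℂ] Z →ₗ[ℂ] B) : Prop :=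
  ∀ (G : Type w) [Group G] [Countable G], IsAmenable G →
    ∀ (α : G →* (A ≃⋆ₐ[ℂ] A)) (β : G →* (B ≃⋆ₐ[ℂ] B)),
      (∀ g a z, β g (T a z) = T (α g a) z) → IsCocycleConj α β

end Vale.Agent.P095.H628
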